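import Vale.Agent.P235.K5.Mix.Defs

set_option linter.all false

/-!
# [MC]: McShane into the plane with the maximum norm
-/

namespace Vale.Agent.P235.K5.Mix.H221

open Vale.Agent.P235 Vale.Agent.P235.K5

theorem exists_two {V : Type} [Finite V] {S : Set V} (hS : S.ncard ≤ 3) (hne : S.Nonempty) :
    ∃ r0 ∈ S, ∃ r1 ∈ S, ∀ a ∈ S, ∀ b ∈ S, a = b ∨ a = r0 ∨ a = r1 ∨ b = r0 ∨ b = r1 := by
  obtain ⟨r0, h0⟩ := hne
  by_cases h1 : (S \ {r0}).Nonempty
  · obtain ⟨r1, h1⟩ := h1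
    refine ⟨r0, h0, r1, h1.1, fun a ha b hb => ?_⟩
    by_contra hc
    simp only [not_or] at hc
    have e1 : (S \ {r0}).ncard + 1 = S.ncard := Set.ncard_diff_singleton_add_one h0
    have e2 : ((S \ {r0}) \ {r1}).ncard + 1 = (S \ {r0}).ncard :=
      Set.ncard_diff_singleton_add_one h1
    have e3 : ((S \ {r0}) \ {r1}).ncard ≤ 1 := by omega
    exact hc.1 ((Set.ncard_le_one (Set.toFinite _)).1 e3 a ⟨⟨ha, hc.2.1⟩, hc.2.2.1⟩ b
      ⟨⟨hb, hc.2.2.2.1⟩, hc.2.2.2.2⟩)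
  · refine ⟨r0, h0, r0, h0, fun a ha b hb => Or.inl ?_⟩
    have h2 : ∀ x ∈ S, x = r0 := fun x hx => by
      by_contra hn
      exact h1 ⟨x, hx, hn⟩
    rw [h2 a ha, h2 b hb]

/-- **[MC]** -/
theorem mc : McStmt := by
  intro V _ d hd S hS ρ hρ hle
  rcases S.eq_empty_or_nonempty with rfl | hne
  · refine ⟨fun _ _ => 0, IsL1.zero, fun x hx => absurd hx (Set.notMem_empty x), fun x y => ?_⟩
    rcases eq_or_ne x y with e | e
    · rw [e, hd.self]
    · exact (hd.pos x y e).le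
  obtain ⟨r0, h0, r1, h1, h2⟩ := exists_two hS hne
  have hl : ∀ r, ∀ a ∈ S, ∀ b ∈ S, |ρ r a - ρ r b| ≤ ρ a b := by
    intro r a _ b _
    rw [hρ.symm r a, hρ.symm r b]
    exact hρ.abs_sub_le a b r
  have hx : ∀ r, ∀ a ∈ S, Phi d (fun s => ρ r s) S a = ρ r a := by
    intro r a ha
    refine le_antisymm ?_ ?_
    · have h3 := Phi_le (d := d) (f := fun s => ρ r s) ha a
      rw [hd.self, add_zero] at h3
      exact h3
    · obtain ⟨b, hb, h3⟩ := exists_Phi (d := d) (f := fun s => ρ r s) hne a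
      rw [h3]
      have h4 := (abs_le.1 ((hl r a ha b hb).trans (hle a ha b hb))).2
      rw [hd.symm a b] at h4
      linarith
  refine ⟨fun x y => max |Phi d (fun s => ρ r0 s) S x - Phi d (fun s => ρ r0 s) S y|
    |Phi d (fun s => ρ r1 s) S x - Phi d (fun s => ρ r1 s) S y|, isL1_max _ _, ?_,
    fun x y => max_le (Phi_lip hd x y) (Phi_lip hd x y)⟩
  intro a ha b hb
  simp only
  rw [hx r0 a ha, hx r0 b hb, hx r1 a ha, hx r1 b hb]
  refine le_antisymm (max_le (hl r0 a ha b hb) (hl r1 a ha b hb)) ?_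
  have hn := hρ.nonneg a b
  rcases h2 a ha b hb with e | e | e | e | e
  · rw [e, hρ.self]
    exact (abs_nonneg _).trans (le_max_left _ _)
  · refine le_trans (le_of_eq ?_) (le_max_left _ _)
    rw [← e, hρ.self, zero_sub, abs_neg, abs_of_nonneg hn]
  · refine le_trans (le_of_eq ?_) (le_max_right _ _)
    rw [← e, hρ.self, zero_sub, abs_neg, abs_of_nonneg hn]
  · refine le_trans (le_of_eq ?_) (le_max_left _ _)
    rw [← e, hρ.self, sub_zero, hρ.symm b a, abs_of_nonneg hn]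
  · refine le_trans (le_of_eq ?_) (le_max_right _ _)
    rw [← e, hρ.self, sub_zero, hρ.symm b a, abs_of_nonneg hn]

end Vale.Agent.P235.K5.Mix.H221
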